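import Mathlib

namespace Vale.Agent.P047

open Finset

variable {n : ℕ}

/-- The sign of a bit. -/
def sgn (b : Bool) : ℝ := if b then 1 else -1

theorem sgn_abs (b : Bool) : |sgn b| = 1 := by cases b <;> simp [sgn]

/-- Local factor of a term. -/
def lit : Option Bool → Bool → ℝ
  | none, _ => 1
  | some a, b => if b = a then 1 else 0

/-- Indicator of a term. -/
def ind (T : Fin n → Option Bool) (x : Fin n → Bool) : ℝ := ∏ i, lit (T i) (x i)

/-- Number of fixed coordinates. -/
def width (T : Fin n → Option Bool) : ℕ := (univ.filter fun i => T i ≠ none).card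

theorem sum_prod (g : Fin n → Bool → ℝ) :
    ∑ x : Fin n → Bool, ∏ i, g i (x i) = ∏ i, (g i true + g i false) := by
  rw [← Fintype.prod_sum]
  exact prod_congr rfl fun i _ => Fintype.sum_bool _

theorem mean_ind (T : Fin n → Option Bool) :
    (∑ x, ind T x) / 2 ^ n = (1 / 2) ^ width T := by
  unfold ind width
  rw [sum_prod fun i b => lit (T i) b]
  have h2 : (2 : ℝ) ^ n = ∏ _i : Fin n, (2 : ℝ) := by simp
  rw [h2, ← prod_div_distrib, ← prod_const, prod_filter]
  refine prod_congr rfl fun i _ => ?_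
  rcases T i with _ | a
  · simp [lit]
  · cases a <;> simp [lit]

/-- Signed count of the fixed coordinates. -/
def bal (s : Fin n → Bool) (T : Fin n → Option Bool) : ℝ :=
  ∑ i, match T i with | none => 0 | some a => sgn (s i) * sgn a

theorem first_moment (T : Fin n → Option Bool) (i : Fin n) :
    (∑ x, ind T x * sgn (x i)) / 2 ^ n
      = (1 / 2) ^ width T * (match T i with | none => 0 | some a => sgn a) := by
  rw [← mean_ind T]
  rcases hT : T i with _ | a
  · have h : ∑ x, ind T x * sgn (x i) = 0 := by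
      have e : ∀ x, ind T x * sgn (x i)
          = ∏ j, (lit (T j) (x j) * if j = i then sgn (x j) else 1) := fun x => by
        rw [prod_mul_distrib, prod_ite_eq' univ i (fun j => sgn (x j))]
        simp [ind]
      simp only [e]
      rw [sum_prod fun j b => lit (T j) b * if j = i then sgn b else 1]
      exact prod_eq_zero (mem_univ i) (by simp [hT, lit, sgn])
    simp [h]
  · have h : ∀ x, ind T x * sgn (x i) = ind T x * sgn a := fun x => by
      by_cases hx : x i = a
      · rw [hx]
      · have : ind T x = 0 := prod_eq_zero (mem_univ i) (by simp [hT, lit, hx])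
        simp [this]
    simp only [h, ← sum_mul]
    ring

/-- Tilted weight. -/
noncomputable def tilt (ρ : ℝ) (s x : Fin n → Bool) : ℝ :=
  ∏ i, (1 + ρ * sgn (s i) * sgn (x i)) / 2

theorem tilt_nonneg {ρ : ℝ} (hρ : |ρ| ≤ 1) (s x : Fin n → Bool) : 0 ≤ tilt ρ s x := by
  refine prod_nonneg fun i _ => ?_
  have := abs_le.1 hρ
  cases s i <;> cases x i <;> simp [sgn] <;> linarith

theorem tilt_total (ρ : ℝ) (s : Fin n → Bool) : ∑ x, tilt ρ s x = 1 := by
  unfold tilt
  rw [sum_prod fun i b => (1 + ρ * sgn (s i) * sgn b) / 2]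
  refine prod_eq_one fun i _ => ?_
  simp [sgn]; ring

theorem tilt_ind (ρ : ℝ) (s : Fin n → Bool) (T : Fin n → Option Bool) :
    ∑ x, tilt ρ s x * ind T x
      = (1 / 2) ^ width T *
        ∏ i, (match T i with | none => (1 : ℝ) | some a => 1 + ρ * sgn (s i) * sgn a) := by
  simp only [tilt, ind, ← prod_mul_distrib]
  rw [sum_prod fun i b => (1 + ρ * sgn (s i) * sgn b) / 2 * lit (T i) b]
  unfold width
  rw [← prod_const, prod_filter, ← prod_mul_distrib]
  refine prod_congr rfl fun i _ => ?_
  rcases T i with _ | a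
  · simp [lit, sgn]; ring
  · cases a <;> simp [lit, sgn] <;> ring

theorem exp_le_one_add {t : ℝ} (h : |t| ≤ 1 / 2) : Real.exp (t - t ^ 2) ≤ 1 + t := by
  obtain ⟨h1, h2⟩ := abs_le.1 h
  have e : 1 ≤ (1 + t) * Real.exp (-t + t ^ 2) := by
    rcases le_total 0 t with ht | ht
    · have := Real.add_one_le_exp (-t + t ^ 2)
      nlinarith [pow_nonneg ht 3]
    · have hy : 0 ≤ -t + t ^ 2 := by nlinarith
      have := Real.quadratic_le_exp_of_nonneg hy
      have hk : 0 ≤ (1 + t) * (1 - t) ^ 2 + 2 * t := by nlinarith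
      nlinarith [mul_nonneg (sq_nonneg t) hk]
  have e2 : Real.exp (t - t ^ 2) * Real.exp (-t + t ^ 2) = 1 := by
    rw [← Real.exp_add]; simp
  nlinarith [Real.exp_pos (-t + t ^ 2)]

theorem term_bound {w : ℕ} (hw : 0 < w) (s : Fin n → Bool) (T : Fin n → Option Bool)
    (hT : width T ≤ w) :
    (1 / 2) ^ width T * bal s T
      ≤ Real.sqrt w * ∑ x, tilt (1 / (2 * Real.sqrt w)) s x * ind T x := by
  set r := Real.sqrt w with hr
  have hr1 : 1 ≤ r := Real.one_le_sqrt.2 (by exact_mod_cast hw)
  have hr2 : r ^ 2 = w := Real.sq_sqrt (by positivity)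
  set ρ : ℝ := 1 / (2 * r) with hρ
  have hρ0 : 0 ≤ ρ := by positivity
  have hρ1 : ρ ≤ 1 / 2 := by
    rw [hρ, div_le_div_iff₀ (by positivity) two_pos]; linarith
  have key : Real.exp (ρ * bal s T - 1 / 4) ≤
      ∏ i, (match T i with | none => (1 : ℝ) | some a => 1 + ρ * sgn (s i) * sgn a) := by
    refine le_trans (Real.exp_le_exp.2 ?_) (le_trans (Real.exp_sum univ
      (fun i => match T i with
        | none => (0 : ℝ) | some a => ρ * sgn (s i) * sgn a - ρ ^ 2)).le ?_)
    · have h1 : ρ * bal s T - (width T : ℝ) * ρ ^ 2 = ∑ i, (match T i with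
          | none => (0 : ℝ) | some a => ρ * sgn (s i) * sgn a - ρ ^ 2) := by
        rw [bal, mul_sum, width, ← sum_boole, sum_mul, ← sum_sub_distrib]
        refine sum_congr rfl fun i _ => ?_
        rcases T i with _ | a <;> simp <;> ring
      have h2 : (width T : ℝ) * ρ ^ 2 ≤ 1 / 4 := by
        have : (w : ℝ) * ρ ^ 2 = 1 / 4 := by rw [hρ, ← hr2]; field_simp; ring
        have hc : (width T : ℝ) ≤ w := by exact_mod_cast hT
        nlinarith [sq_nonneg ρ]
      linarith
    · refine Finset.prod_le_prod (fun i _ => (Real.exp_pos _).le) fun i _ => ?_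
      rcases T i with _ | a
      · simp
      · have ha : |ρ * sgn (s i) * sgn a| ≤ 1 / 2 := by
          rw [abs_mul, abs_mul, sgn_abs, sgn_abs, abs_of_nonneg hρ0]; linarith
        have hs : (ρ * sgn (s i) * sgn a) ^ 2 = ρ ^ 2 := by
          cases s i <;> cases a <;> simp [sgn]
        have := exp_le_one_add ha
        rw [hs] at this
        exact this
  rw [tilt_ind, mul_left_comm]
  refine mul_le_mul_of_nonneg_left ?_ (by positivity)
  refine le_trans ?_ (mul_le_mul_of_nonneg_left key (by positivity))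
  -- `m ≤ r * exp (m / (2 r) - 1 / 4)`
  have e1 := Real.add_one_le_exp (ρ * bal s T - 1)
  have e2 : Real.exp (ρ * bal s T - 1 / 4)
      = Real.exp (ρ * bal s T - 1) * Real.exp (3 / 4) := by
    rw [← Real.exp_add]; ring_nf
  have e3 : (2 : ℝ) ≤ Real.exp (3 / 4) := by
    have := Real.quadratic_le_exp_of_nonneg (show (0 : ℝ) ≤ 3 / 4 by norm_num)
    linarith
  have e4 : bal s T = 2 * r * (ρ * bal s T) := by
    rw [hρ]; field_simp
  rw [e2]
  rw [e4]
  have hp := Real.exp_pos (ρ * bal s T - 1)
  have : 2 * (ρ * bal s T) ≤ Real.exp (ρ * bal s T - 1) * Real.exp (3 / 4) := by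
    nlinarith
  have e5 : ρ * (2 * r * (ρ * bal s T)) = ρ * bal s T := by rw [← e4]
  rw [e5]
  nlinarith

theorem linear_sum_le {m : ℕ} (c : Fin m → ℝ) (hc : ∀ j, 0 ≤ c j)
    (T : Fin m → Fin n → Option Bool) {w : ℕ} (hT : ∀ j, width (T j) ≤ w)
    (f : (Fin n → Bool) → ℝ) (hf : ∀ x, f x ≤ 1)
    (hrep : ∀ x, 1 + f x = ∑ j, c j * ind (T j) x) :
    ∑ i, |(∑ x, f x * sgn (x i)) / 2 ^ n| ≤ 2 * Real.sqrt w := by
  classical
  set s : Fin n → Bool := fun i => decide (0 ≤ (∑ x, f x * sgn (x i)) / 2 ^ n) with hs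
  have habs : ∀ i, |(∑ x, f x * sgn (x i)) / 2 ^ n|
      = sgn (s i) * ((∑ x, f x * sgn (x i)) / 2 ^ n) := by
    intro i
    by_cases h : 0 ≤ (∑ x, f x * sgn (x i)) / 2 ^ n
    · have : s i = true := by simp only [hs]; exact decide_eq_true h
      rw [abs_of_nonneg h, this, sgn, if_pos rfl, one_mul]
    · have : s i = false := by simp only [hs]; exact decide_eq_false h
      rw [abs_of_neg (not_le.1 h), this, sgn, if_neg Bool.false_ne_true, neg_one_mul]
  have hone : ∀ i : Fin n, ∑ x : Fin n → Bool, sgn (x i) = 0 := by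
    intro i
    have h := first_moment (fun _ : Fin n => (none : Option Bool)) i
    simpa [ind, lit] using h
  have hcoef : ∀ i, (∑ x, f x * sgn (x i)) / 2 ^ n
      = ∑ j, c j * ((1 / 2) ^ width (T j) * (match T j i with | none => 0 | some a => sgn a)) := by
    intro i
    have e : ∑ x, f x * sgn (x i) = ∑ j, c j * ∑ x, ind (T j) x * sgn (x i) := by
      have h1 : ∀ x, f x * sgn (x i) = (∑ j, c j * ind (T j) x) * sgn (x i) - sgn (x i) :=
        fun x => by rw [← hrep x]; ring
      simp only [h1, sum_sub_distrib, hone, sub_zero, sum_mul]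
      rw [sum_comm]
      simp only [mul_sum, mul_assoc]
    rw [e, sum_div]
    exact sum_congr rfl fun j _ => by rw [mul_div_assoc, first_moment]
  rw [sum_congr rfl fun i _ => habs i]
  simp only [hcoef, mul_sum]
  rw [sum_comm]
  have hin : ∀ j, ∑ i, sgn (s i) * (c j * ((1 / 2) ^ width (T j) *
      (match T j i with | none => 0 | some a => sgn a))) = c j * ((1 / 2) ^ width (T j) * bal s (T j)) := by
    intro j
    rw [bal, mul_sum, mul_sum]
    refine sum_congr rfl fun i _ => ?_
    rcases T j i with _ | a <;> simp <;> ring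
  simp only [hin]
  rcases Nat.eq_zero_or_pos w with rfl | hw
  · have : ∀ j, bal s (T j) = 0 := by
      intro j
      have h0 : width (T j) = 0 := Nat.le_zero.1 (hT j)
      refine sum_eq_zero fun i _ => ?_
      rcases hi : T j i with _ | a
      · rfl
      · have : i ∈ univ.filter fun i => T j i ≠ none := by simp [hi]
        rw [width, card_eq_zero] at h0
        simp [h0] at this
    simp [this]
  set ρ : ℝ := 1 / (2 * Real.sqrt w)
  have hρ : |ρ| ≤ 1 := by
    have hr1 : 1 ≤ Real.sqrt w := Real.one_le_sqrt.2 (by exact_mod_cast hw)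
    rw [abs_of_nonneg (by positivity), div_le_one (by positivity)]
    linarith
  calc ∑ j, c j * ((1 / 2) ^ width (T j) * bal s (T j))
      ≤ ∑ j, c j * (Real.sqrt w * ∑ x, tilt ρ s x * ind (T j) x) :=
        sum_le_sum fun j _ => mul_le_mul_of_nonneg_left (term_bound hw s (T j) (hT j)) (hc j)
    _ = Real.sqrt w * ∑ x, tilt ρ s x * (1 + f x) := by
        simp only [hrep, mul_sum]
        rw [sum_comm]
        exact sum_congr rfl fun x _ => sum_congr rfl fun j _ => by ring
    _ ≤ Real.sqrt w * ∑ x, tilt ρ s x * 2 := by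
        refine mul_le_mul_of_nonneg_left (sum_le_sum fun x _ => ?_) (Real.sqrt_nonneg _)
        exact mul_le_mul_of_nonneg_left (by linarith [hf x]) (tilt_nonneg hρ s x)
    _ = 2 * Real.sqrt w := by rw [← sum_mul, tilt_total]; ring

end Vale.Agent.P047
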